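import Mathlib

/-!
# P033: discrepancy and symmetry restrictions for circulant Hadamard matrices
-/

open Finset

namespace Vale.Agent.Results.P033.Discrepancy

/-- The circulant matrix with first row `h`: `H i j = h (j - i)`. -/
def circ {n : ℕ} (h : ZMod n → ℤ) : Matrix (ZMod n) (ZMod n) ℤ := fun i j => h (j - i)

/-- `h` is the first row of a real circulant Hadamard matrix of order `n`. -/
def IsCirculantHadamardRow (n : ℕ) [NeZero n] (h : ZMod n → ℤ) : Prop :=
  (∀ i, h i = 1 ∨ h i = -1) ∧ circ h * (circ h).transpose = (n : ℤ) • (1 : Matrix (ZMod n) (ZMod n) ℤ)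

variable {n : ℕ} [NeZero n]

theorem autocorr {h : ZMod n → ℤ} (hh : IsCirculantHadamardRow n h) {t : ZMod n} (ht : t ≠ 0) :
    ∑ x, h x * h (x + t) = 0 := by
  have h1 := congrFun (congrFun hh.2 t) 0
  rw [Matrix.mul_apply] at h1
  simp only [circ, Matrix.transpose_apply, Matrix.smul_apply, Matrix.one_apply_ne ht, sub_zero,
    smul_zero] at h1
  rw [← h1]
  refine Fintype.sum_equiv (Equiv.addRight t) _ _ fun x => ?_
  simp

/-- window sums -/
def W (h : ZMod n → ℤ) (d : ZMod n) (l : ℕ) (x : ZMod n) : ℤ := ∑ i ∈ range l, h (x + i • d)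

omit [NeZero n] in
theorem nsmul_inj {d : ZMod n} {l i j : ℕ} (hl : l ≤ addOrderOf d) (hi : i < l) (hj : j < l)
    (h : i • d = j • d) : i = j := by
  have := (nsmul_inj_mod (x := d) (n := i) (m := j)).1 h
  rwa [Nat.mod_eq_of_lt (by omega), Nat.mod_eq_of_lt (by omega)] at this

theorem energy {h : ZMod n → ℤ} (hh : IsCirculantHadamardRow n h) {d : ZMod n} {l : ℕ}
    (hl : l ≤ addOrderOf d) : ∑ x, (W h d l x) ^ 2 = l * n := by
  have h1 : ∀ x, (W h d l x) ^ 2 = ∑ i ∈ range l, ∑ j ∈ range l, h (x + i • d) * h (x + j • d) := by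
    intro x
    rw [W, sq, Finset.sum_mul_sum]
  simp_rw [h1]
  rw [Finset.sum_comm]
  have h2 : ∀ i ∈ range l, ∑ x, ∑ j ∈ range l, h (x + i • d) * h (x + j • d) = (n : ℤ) := by
    intro i hi
    rw [Finset.sum_comm]
    rw [Finset.sum_eq_single_of_mem i hi]
    · have : ∀ x : ZMod n, h (x + i • d) * h (x + i • d) = 1 := by
        intro x
        rcases hh.1 (x + i • d) with h3 | h3 <;> rw [h3] <;> norm_num
      rw [Finset.sum_congr rfl fun x _ => this x]
      simp [ZMod.card]
    · intro j hj hij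
      have hne : j • d - i • d ≠ 0 := by
        intro h0
        exact hij (nsmul_inj hl (mem_range.1 hj) (mem_range.1 hi) (sub_eq_zero.1 h0))
      rw [← autocorr hh hne]
      refine Fintype.sum_equiv (Equiv.addRight (i • d)) _ _ fun x => ?_
      simp only [Equiv.coe_addRight]
      congr 2
      abel
  rw [Finset.sum_congr rfl h2]
  simp

omit [NeZero n] in
theorem step {h : ZMod n → ℤ} (hh : ∀ i, h i = 1 ∨ h i = -1) (d : ZMod n) (l : ℕ) (x : ZMod n) :
    |W h d l (x + d) - W h d l x| ≤ 2 := by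
  have h1 : W h d l (x + d) - W h d l x = h (x + l • d) - h x := by
    have h2 : W h d l (x + d) = ∑ i ∈ range l, h (x + (i + 1) • d) := by
      unfold W
      refine Finset.sum_congr rfl fun i _ => ?_
      congr 1
      rw [succ_nsmul]; abel
    rw [h2, W, ← Finset.sum_sub_distrib, Finset.sum_range_sub (fun i => h (x + i • d))]
    simp
  rw [h1]
  rcases hh (x + l • d) with h3 | h3 <;> rcases hh x with h4 | h4 <;> rw [h3, h4] <;> norm_num

omit [NeZero n] in
theorem absW_right {h : ZMod n → ℤ} (hh : ∀ i, h i = 1 ∨ h i = -1) (d : ZMod n) (l : ℕ)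
    (a : ZMod n) (t : ℕ) : |W h d l a| - 2 * t ≤ |W h d l (a + t • d)| := by
  induction t with
  | zero => simp
  | succ t ih =>
    have h1 := step hh d l (a + t • d)
    have h2 : a + (t + 1) • d = a + t • d + d := by rw [succ_nsmul]; abel
    rw [h2]
    have h3 := abs_sub_abs_le_abs_sub (W h d l (a + t • d)) (W h d l (a + t • d + d))
    rw [abs_sub_comm] at h3
    push_cast
    linarith

omit [NeZero n] in
theorem absW_left {h : ZMod n → ℤ} (hh : ∀ i, h i = 1 ∨ h i = -1) (d : ZMod n) (l : ℕ)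
    (a : ZMod n) (t : ℕ) : |W h d l a| - 2 * t ≤ |W h d l (a - t • d)| := by
  induction t with
  | zero => simp
  | succ t ih =>
    have h1 := step hh d l (a - (t + 1) • d)
    have h2 : a - (t + 1) • d + d = a - t • d := by rw [succ_nsmul]; abel
    rw [h2] at h1
    have h3 := abs_sub_abs_le_abs_sub (W h d l (a - t • d)) (W h d l (a - (t + 1) • d))
    push_cast
    linarith

/-- lower bound of the energy through the window sums near `a` -/
theorem lower {h : ZMod n → ℤ} (d : ZMod n) (l : ℕ) (a : ZMod n) (k : ℕ)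
    (hk : 2 * k + 1 ≤ addOrderOf d) :
    (W h d l a) ^ 2 + ∑ t ∈ range k, ((W h d l (a + (t + 1) • d)) ^ 2 +
      (W h d l (a - (t + 1) • d)) ^ 2) ≤ ∑ x, (W h d l x) ^ 2 := by
  classical
  set b : ZMod n := a - k • d with hb
  have hinj : Set.InjOn (fun j : ℕ => b + j • d) (range (2 * k + 1) : Set ℕ) := by
    intro i hi j hj hij
    simp only [coe_range, Set.mem_Iio] at hi hj
    exact nsmul_inj hk hi hj (add_left_cancel hij)
  have h1 : ∑ j ∈ range (2 * k + 1), (W h d l (b + j • d)) ^ 2 ≤ ∑ x, (W h d l x) ^ 2 := by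
    rw [← Finset.sum_image (f := fun x => (W h d l x) ^ 2) (g := fun j : ℕ => b + j • d) hinj]
    exact Finset.sum_le_sum_of_subset_of_nonneg (Finset.subset_univ _) fun _ _ _ => sq_nonneg _
  refine le_trans (le_of_eq ?_) h1
  have h2 : 2 * k + 1 = k + (k + 1) := by ring
  rw [h2, Finset.sum_range_add, Finset.sum_range_succ' (fun x => (W h d l (b + (k + x) • d)) ^ 2),
    Finset.sum_add_distrib]
  have h3 : ∀ t : ℕ, b + (k + t) • d = a + t • d := by
    intro t
    rw [hb, add_nsmul]; abel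
  have h4 : ∑ x ∈ range k, (W h d l (b + x • d)) ^ 2 =
      ∑ t ∈ range k, (W h d l (a - (t + 1) • d)) ^ 2 := by
    rw [← Finset.sum_range_reflect]
    refine Finset.sum_congr rfl fun t ht => ?_
    have htk := mem_range.1 ht
    congr 2
    have h5 : k • d = (k - 1 - t) • d + (t + 1) • d := by
      rw [← add_nsmul]; congr 1; omega
    rw [hb, h5]; abel
  rw [h4]
  simp only [h3]
  simp only [zero_nsmul, add_zero]
  ring

theorem poly (s : ℕ) (hs : 1 ≤ s) : ∃ k : ℕ, 2 * k + 1 ≤ s ∧ (∀ t < k, 2 * (t + 1) ≤ s) ∧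
    (s : ℤ) ^ 3 + 2 * s ≤ 3 * ((s : ℤ) ^ 2 + ∑ t ∈ range k, 2 * ((s : ℤ) - 2 * (t + 1)) ^ 2) := by
  rcases Nat.even_or_odd' s with ⟨c, hc | hc⟩
  · obtain ⟨k, rfl⟩ : ∃ k, c = k + 1 := ⟨c - 1, by omega⟩
    refine ⟨k, by omega, fun t ht => by omega, ?_⟩
    subst hc
    have key : ∀ k : ℕ, 3 * ∑ t ∈ range k, 2 * (((2 * (k + 1) : ℕ) : ℤ) - 2 * (t + 1)) ^ 2 =
        4 * (k : ℤ) * (k + 1) * (2 * k + 1) := by
      intro k
      rw [← Finset.sum_range_reflect]
      have : ∀ t ∈ range k, 2 * (((2 * (k + 1) : ℕ) : ℤ) - 2 * ((k - 1 - t : ℕ) + 1)) ^ 2 =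
          8 * ((t : ℤ) + 1) ^ 2 := by
        intro t ht
        have htk := mem_range.1 ht
        have : ((k - 1 - t : ℕ) : ℤ) = k - 1 - t := by omega
        rw [this]; push_cast; ring
      rw [Finset.sum_congr rfl this]
      clear this
      induction k with
      | zero => simp
      | succ k ih => rw [Finset.sum_range_succ, mul_add, ih]; push_cast; ring
    rw [mul_add (3 : ℤ)]
    have hk := key k
    push_cast at hk ⊢
    rw [hk]
    nlinarith
  · refine ⟨c, by omega, fun t ht => by omega, ?_⟩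
    subst hc
    have key : ∀ k : ℕ, 3 * ∑ t ∈ range k, 2 * (((2 * k + 1 : ℕ) : ℤ) - 2 * (t + 1)) ^ 2 =
        2 * ((2 * (k : ℤ) - 1) * k * (2 * k + 1)) := by
      intro k
      rw [← Finset.sum_range_reflect]
      have : ∀ t ∈ range k, 2 * (((2 * k + 1 : ℕ) : ℤ) - 2 * ((k - 1 - t : ℕ) + 1)) ^ 2 =
          2 * (2 * (t : ℤ) + 1) ^ 2 := by
        intro t ht
        have htk := mem_range.1 ht
        have : ((k - 1 - t : ℕ) : ℤ) = k - 1 - t := by omega
        rw [this]; push_cast; ring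
      rw [Finset.sum_congr rfl this]
      clear this
      induction k with
      | zero => simp
      | succ k ih => rw [Finset.sum_range_succ, mul_add, ih]; push_cast; ring
    rw [mul_add, key c]
    push_cast
    nlinarith

/-- The discrepancy bound. -/
theorem discrepancy {h : ZMod n → ℤ} (hh : IsCirculantHadamardRow n h) (a d : ZMod n) {l : ℕ}
    (hl : l ≤ addOrderOf d) :
    |W h d l a| ^ 3 + 2 * |W h d l a| ≤ 3 * l * n := by
  obtain ⟨s, hs⟩ : ∃ s : ℕ, |W h d l a| = s := ⟨(W h d l a).natAbs, by simp⟩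
  have hsl : s ≤ l := by
    have h1 : |W h d l a| ≤ l := by
      refine (Finset.abs_sum_le_sum_abs _ _).trans ?_
      have : ∀ i ∈ range l, |h (a + i • d)| ≤ 1 := by
        intro i _
        rcases hh.1 (a + i • d) with h3 | h3 <;> rw [h3] <;> norm_num
      refine (Finset.sum_le_sum this).trans ?_
      simp
    rw [hs] at h1
    exact_mod_cast h1
  rw [hs]
  rcases Nat.eq_zero_or_pos s with h0 | h0
  · subst h0
    simp
    positivity
  obtain ⟨k, hk1, hk2, hk3⟩ := poly s h0
  refine hk3.trans ?_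
  have h1 := lower (h := h) d l a k (by omega)
  rw [energy hh hl] at h1
  have h2 : (s : ℤ) ^ 2 = (W h d l a) ^ 2 := by rw [← hs, sq_abs]
  have h3 : ∑ t ∈ range k, 2 * ((s : ℤ) - 2 * (t + 1)) ^ 2 ≤
      ∑ t ∈ range k, ((W h d l (a + (t + 1) • d)) ^ 2 + (W h d l (a - (t + 1) • d)) ^ 2) := by
    refine Finset.sum_le_sum fun t ht => ?_
    have htk := hk2 t (mem_range.1 ht)
    have hr := absW_right hh.1 d l a (t + 1)
    have hl' := absW_left hh.1 d l a (t + 1)
    rw [hs] at hr hl'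
    push_cast at hr hl'
    have h0' : (0 : ℤ) ≤ s - 2 * (t + 1) := by omega
    have e1 : ((s : ℤ) - 2 * (t + 1)) ^ 2 ≤ (W h d l (a + (t + 1) • d)) ^ 2 := by
      rw [← sq_abs (W h d l (a + (t + 1) • d))]
      exact pow_le_pow_left₀ h0' hr 2
    have e2 : ((s : ℤ) - 2 * (t + 1)) ^ 2 ≤ (W h d l (a - (t + 1) • d)) ^ 2 := by
      rw [← sq_abs (W h d l (a - (t + 1) • d))]
      exact pow_le_pow_left₀ h0' hl' 2
    linarith
  rw [h2]
  linarith

theorem sum_two_mul (N : ℕ) (F : ℕ → ℤ) :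
    ∑ i ∈ range (2 * N), F i = ∑ k ∈ range N, (F (2 * k) + F (2 * k + 1)) := by
  induction N with
  | zero => simp
  | succ N ih =>
    rw [show 2 * (N + 1) = 2 * N + 1 + 1 by ring, Finset.sum_range_succ, Finset.sum_range_succ, ih,
      Finset.sum_range_succ]
    ring

theorem odd_sum (m : ℕ) (f : ℕ → ℤ) (hf : ∀ k, f k = 1 ∨ f k = -1) :
    (∑ k ∈ range m, f k) % 2 = (m : ℤ) % 2 := by
  induction m with
  | zero => simp
  | succ m ih =>
    rw [Finset.sum_range_succ]
    push_cast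
    rcases hf m with h | h <;> rw [h] <;> omega

theorem sum_zmod (N : ℕ) [NeZero N] (f : ZMod N → ℤ) :
    ∑ x, f x = ∑ i ∈ range N, f (i : ZMod N) := by
  symm
  refine Finset.sum_bij (fun i _ => (i : ZMod N)) (fun _ _ => mem_univ _) ?_ ?_ (fun _ _ => rfl)
  · intro i hi j hj hij
    rw [ZMod.natCast_eq_natCast_iff'] at hij
    rwa [Nat.mod_eq_of_lt (mem_range.1 hi), Nat.mod_eq_of_lt (mem_range.1 hj)] at hij
  · intro x _
    exact ⟨x.val, mem_range.2 (ZMod.val_lt x), ZMod.natCast_zmod_val x⟩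

theorem parity_core (m : ℕ) (hm : Odd m) (H : ℕ → ℤ) (hH : ∀ i, H i = 1 ∨ H i = -1)
    (hper : ∀ i, H (i + 4 * m) = H i)
    (P1 : ∑ i ∈ range (2 * (2 * m)), H i * H (i + 2 * m) = 0)
    (P2 : ∑ i ∈ range (2 * (2 * m)), H i * H (i + 2) = 0)
    (P3 : ∑ i ∈ range (2 * (2 * m)), H i * H (i + (2 + 2 * m)) = 0)
    (hodd : ∀ k, H (2 * k + 1 + 2 * m) = H (2 * k + 1)) : False := by
  have sq1 : ∀ i, H i * H i = 1 := fun i => by rcases hH i with h | h <;> rw [h] <;> norm_num
  rw [sum_two_mul] at P1 P2 P3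
  have hm0 : 0 < m := hm.pos
  -- even positions are antiperiodic
  have E0 : ∀ k < 2 * m, H (2 * k) * H (2 * k + 2 * m) = -1 := by
    have h1 : ∑ k ∈ range (2 * m), (H (2 * k) * H (2 * k + 2 * m) + 1) = 0 := by
      rw [← P1]
      refine Finset.sum_congr rfl fun k _ => ?_
      rw [hodd k, sq1]
    have h2 : ∀ k ∈ range (2 * m), 0 ≤ H (2 * k) * H (2 * k + 2 * m) + 1 := by
      intro k _
      rcases hH (2 * k) with h | h <;> rcases hH (2 * k + 2 * m) with h' | h' <;> rw [h, h'] <;>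
        norm_num
    intro k hk
    have h3 := (Finset.sum_eq_zero_iff_of_nonneg h2).1 h1 k (mem_range.2 hk)
    linarith
  have hper2 : ∀ j i, H (i + 4 * m * j) = H i := by
    intro j
    induction j with
    | zero => simp
    | succ j ih =>
      intro i
      rw [show i + 4 * m * (j + 1) = i + 4 * m * j + 4 * m by ring, hper, ih]
  have E1 : ∀ k, H (2 * k + 2 * m) = - H (2 * k) := by
    have E2 : ∀ k < 2 * m, H (2 * k + 2 * m) = - H (2 * k) := by
      intro k hk
      have := E0 k hk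
      rcases hH (2 * k) with h | h <;> rw [h] at this ⊢ <;> linarith
    intro k
    have hk := Nat.div_add_mod k (2 * m)
    have h1 : 2 * k = 2 * (k % (2 * m)) + 4 * m * (k / (2 * m)) := by
      calc 2 * k = 2 * (2 * m * (k / (2 * m)) + k % (2 * m)) := by rw [hk]
        _ = _ := by ring
    have h2 : 2 * k + 2 * m = 2 * (k % (2 * m)) + 2 * m + 4 * m * (k / (2 * m)) := by
      rw [h1]; ring
    rw [h2, hper2, E2 _ (Nat.mod_lt _ (by omega))]
    rw [h1, hper2]
  have h3 : ∑ k ∈ range (2 * m), (-(H (2 * k) * H (2 * k + 2)) +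
      H (2 * k + 1) * H (2 * k + 1 + 2)) = 0 := by
    rw [← P3]
    refine Finset.sum_congr rfl fun k _ => ?_
    have e1 : H (2 * k + (2 + 2 * m)) = - H (2 * k + 2) := by
      have := E1 (k + 1)
      rwa [show 2 * (k + 1) + 2 * m = 2 * k + (2 + 2 * m) by ring,
        show 2 * (k + 1) = 2 * k + 2 by ring] at this
    have e2 : H (2 * k + 1 + (2 + 2 * m)) = H (2 * k + 1 + 2) := by
      have := hodd (k + 1)
      rwa [show 2 * (k + 1) + 1 + 2 * m = 2 * k + 1 + (2 + 2 * m) by ring,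
        show 2 * (k + 1) + 1 = 2 * k + 1 + 2 by ring] at this
    rw [e1, e2]; ring
  rw [Finset.sum_add_distrib] at h3 P2
  rw [Finset.sum_neg_distrib] at h3
  have h4 : ∑ k ∈ range (m + m), H (2 * k + 1) * H (2 * k + 1 + 2) = 0 := by
    rw [← two_mul]; linarith
  rw [Finset.sum_range_add] at h4
  have h5 : ∑ x ∈ range m, H (2 * (m + x) + 1) * H (2 * (m + x) + 1 + 2) =
      ∑ x ∈ range m, H (2 * x + 1) * H (2 * x + 1 + 2) := by
    refine Finset.sum_congr rfl fun k _ => ?_
    have e1 : H (2 * (m + k) + 1) = H (2 * k + 1) := by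
      rw [← hodd k]; congr 1; ring
    have e2 : H (2 * (m + k) + 1 + 2) = H (2 * k + 1 + 2) := by
      have := hodd (k + 1)
      rw [show 2 * (k + 1) + 1 = 2 * k + 1 + 2 by ring] at this
      rw [← this]; congr 1; ring
    rw [e1, e2]
  rw [h5] at h4
  have h6 := odd_sum m (fun k => H (2 * k + 1) * H (2 * k + 1 + 2)) (fun k => by
    rcases hH (2 * k + 1) with h | h <;> rcases hH (2 * k + 1 + 2) with h' | h' <;>
      rw [h, h'] <;> norm_num)
  obtain ⟨q, hq⟩ := hm
  omega

theorem half_period {m : ℕ} [NeZero (4 * m)] (hm : Odd m) (hm1 : 1 < m) {h : ZMod (4 * m) → ℤ}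
    (hh : IsCirculantHadamardRow (4 * m) h) (c : ZMod (4 * m)) :
    ¬ ∀ k : ℕ, h (c + (2 * k : ℕ) + (2 * m : ℕ)) = h (c + (2 * k : ℕ)) := by
  intro hc
  have key : ∀ t : ℕ, 0 < t → t < 4 * m →
      ∑ i ∈ range (2 * (2 * m)), h (((i : ℕ) : ZMod (4 * m)) + (c - 1)) *
        h (((i + t : ℕ) : ZMod (4 * m)) + (c - 1)) = 0 := by
    intro t ht0 ht
    have hne : (t : ZMod (4 * m)) ≠ 0 := by
      intro h0
      rw [ZMod.natCast_eq_zero_iff] at h0
      exact absurd (Nat.le_of_dvd ht0 h0) (by omega)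
    have h1 := autocorr hh hne
    have h2 : ∑ x, h (x + (c - 1)) * h (x + t + (c - 1)) = 0 := by
      rw [← h1]
      refine Fintype.sum_equiv (Equiv.addRight (c - 1)) _ _ fun x => ?_
      simp only [Equiv.coe_addRight]
      congr 2
      abel
    rw [sum_zmod] at h2
    rw [show 2 * (2 * m) = 4 * m by ring, ← h2]
    refine Finset.sum_congr rfl fun i _ => ?_
    push_cast
    rfl
  refine parity_core m hm (fun i => h (((i : ℕ) : ZMod (4 * m)) + (c - 1))) (fun i => hh.1 _) ?_
    (key (2 * m) (by omega) (by omega)) (key 2 (by omega) (by omega))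
    (key (2 + 2 * m) (by omega) (by omega)) ?_
  · intro i
    show h _ = h _
    congr 2
    rw [Nat.cast_add, ZMod.natCast_self, add_zero]
  · intro k
    have := hc k
    show h _ = h _
    have e1 : ((2 * k + 1 + 2 * m : ℕ) : ZMod (4 * m)) + (c - 1) =
        c + (2 * k : ℕ) + (2 * m : ℕ) := by push_cast; ring
    have e2 : ((2 * k + 1 : ℕ) : ZMod (4 * m)) + (c - 1) = c + (2 * k : ℕ) := by
      push_cast; ring
    rw [e1, e2, this]

/-- Let `h` be the first row of a real circulant Hadamard matrix of order `n`.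
(1) Discrepancy: the sum `S` of `h` over any arithmetic progression of `l` distinct residues
`a, a + d, ..., a + (l-1)d` satisfies `|S|^3 + 2|S| ≤ 3 l n`.
(2) If `h` is constant on such a progression (for instance on a run of `l` consecutive equal
signs), then `l^2 + 2 ≤ 3 n`.
(3) If `n = 4m` with `m > 1` odd, then `h` is not `n/2`-periodic on any of the two classes modulo 2.
-/
theorem result (n : ℕ) [NeZero n] (h : ZMod n → ℤ) (hh : IsCirculantHadamardRow n h) :
    (∀ (a d : ZMod n) (l : ℕ), l ≤ addOrderOf d →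
      |∑ i ∈ range l, h (a + i • d)| ^ 3 + 2 * |∑ i ∈ range l, h (a + i • d)| ≤ 3 * l * n) ∧
    (∀ (a d : ZMod n) (l : ℕ), 1 ≤ l → l ≤ addOrderOf d → (∀ i < l, h (a + i • d) = h a) →
      l ^ 2 + 2 ≤ 3 * n) ∧
    (∀ m : ℕ, n = 4 * m → Odd m → 1 < m → ∀ c : ZMod n,
      ∃ k : ℕ, h (c + (2 * k : ℕ) + (2 * m : ℕ)) ≠ h (c + (2 * k : ℕ))) := by
  refine ⟨fun a d l hl => discrepancy hh a d hl, fun a d l h1 hl hrun => ?_, ?_⟩
  · have h2 := discrepancy hh a d hl
    have h3 : W h d l a = l * h a := by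
      unfold W
      rw [Finset.sum_congr rfl fun i hi => hrun i (mem_range.1 hi)]
      simp
    have h4 : |W h d l a| = (l : ℤ) := by
      rw [h3, abs_mul]
      rcases hh.1 a with h5 | h5 <;> rw [h5] <;> simp
    rw [h4] at h2
    have h5 : (l : ℤ) * ((l : ℤ) ^ 2 + 2) ≤ l * (3 * n) := by linarith
    have h6 : (0 : ℤ) < l := by exact_mod_cast h1
    have h7 := le_of_mul_le_mul_left h5 h6
    exact_mod_cast h7
  · rintro m rfl hm hm1 c
    by_contra hcon
    push Not at hcon
    exact half_period hm hm1 hh c hcon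

end Vale.Agent.Results.P033.Discrepancy
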