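import Mathlib

/-!
P033 (circulant Hadamard conjecture): the product sequences of a circulant Hadamard matrix of
order `n`, `n / 4` odd, have no smaller period.
-/

namespace Vale.Agent.Results.P033.ProductSequences

open Finset

/-- The periodic autocorrelation `P_h(t) = ∑_x h(x) h(x + t)`. -/
def autoc {n : ℕ} [NeZero n] (h : ZMod n → ℤ) (t : ZMod n) : ℤ := ∑ x, h x * h (x + t)

/-- `h` is the first row of a circulant Hadamard matrix of order `n`. -/
def CircHadamard {n : ℕ} [NeZero n] (h : ZMod n → ℤ) : Prop :=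
  (∀ x, h x = 1 ∨ h x = -1) ∧ ∀ t, t ≠ 0 → autoc h t = 0

/-- For a divisor `k` of `n` and `y ∈ ℤ/k`: the product of the `n / k` entries `h(x)`, `x ≡ y`
modulo `k`. -/
def prodSeq {n k : ℕ} [NeZero n] (hk : k ∣ n) (h : ZMod n → ℤ) (y : ZMod k) : ℤ :=
  ∏ x ∈ univ.filter (fun x : ZMod n => ZMod.castHom hk (ZMod k) x = y), h x

section
variable {n k : ℕ} [NeZero n] [NeZero k] (hk : k ∣ n) (h : ZMod n → ℤ)

/-- the folded sequence -/
def fold (y : ZMod k) : ℤ :=
  ∑ x ∈ univ.filter (fun x : ZMod n => ZMod.castHom hk (ZMod k) x = y), h x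

theorem fold_corr (s : ZMod k) : ∑ y, fold hk h y * fold hk h (y + s) =
    ∑ t ∈ univ.filter (fun t : ZMod n => ZMod.castHom hk (ZMod k) t = s), autoc h t := by
  set f := ZMod.castHom hk (ZMod k) with hf
  have h1 : ∀ y, fold hk h y * fold hk h (y + s) =
      ∑ x ∈ univ.filter (fun x : ZMod n => f x = y), h x * fold hk h (f x + s) := by
    intro y
    unfold fold
    rw [Finset.sum_mul]
    refine Finset.sum_congr rfl fun x hx => ?_
    rw [(mem_filter.1 hx).2]
  simp only [h1]
  rw [Finset.sum_fiberwise (s := univ) (g := fun x => f x) (f := fun x => h x * fold hk h (f x + s))]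
  unfold autoc
  rw [Finset.sum_comm]
  refine Finset.sum_congr rfl fun x _ => ?_
  unfold fold
  rw [Finset.mul_sum]
  refine Finset.sum_bij' (fun x' _ => x' - x) (fun t _ => x + t) ?_ ?_ ?_ ?_ ?_
  · intro a ha
    rw [mem_filter] at ha ⊢
    refine ⟨mem_univ _, ?_⟩
    rw [map_sub, ha.2]; ring
  · intro t ht
    rw [mem_filter] at ht ⊢
    refine ⟨mem_univ _, ?_⟩
    rw [map_add, ht.2]
  · intro a _; ring
  · intro a _; ring
  · intro a _
    congr 2; ring

theorem card_fiber (y : ZMod k) :
    #(univ.filter (fun x : ZMod n => ZMod.castHom hk (ZMod k) x = y)) = n / k := by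
  have hsurj : Function.Surjective (ZMod.castHom hk (ZMod k)) := ZMod.castHom_surjective hk
  have h1 : ∀ y y' : ZMod k, #(univ.filter (fun x : ZMod n => ZMod.castHom hk (ZMod k) x = y)) =
      #(univ.filter (fun x : ZMod n => ZMod.castHom hk (ZMod k) x = y')) := by
    intro y y'
    obtain ⟨z, hz⟩ := hsurj (y' - y)
    refine Finset.card_bij' (fun x _ => x + z) (fun x _ => x - z) ?_ ?_ ?_ ?_
    · intro a ha
      rw [mem_filter] at ha ⊢
      refine ⟨mem_univ _, ?_⟩
      rw [map_add, ha.2, hz]; ring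
    · intro a ha
      rw [mem_filter] at ha ⊢
      refine ⟨mem_univ _, ?_⟩
      rw [map_sub, ha.2, hz]; ring
    · intro a _; ring
    · intro a _; ring
  have h2 : #(univ : Finset (ZMod n)) = ∑ y' : ZMod k,
      #(univ.filter (fun x : ZMod n => ZMod.castHom hk (ZMod k) x = y')) :=
    Finset.card_eq_sum_card_fiberwise (fun x _ => mem_coe.2 (mem_univ _))
  rw [Finset.sum_congr rfl (fun y' _ => h1 y' y), Finset.sum_const, card_univ, card_univ,
    ZMod.card, ZMod.card, smul_eq_mul] at h2
  exact (Nat.div_eq_of_eq_mul_right (Nat.pos_of_ne_zero (NeZero.ne k)) h2).symm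

/-- sums and products of signs -/
theorem sign_sum {ι : Type*} (T : Finset ι) (g : ι → ℤ) (hg : ∀ x, g x = 1 ∨ g x = -1) :
    ∃ m : ℕ, ∑ x ∈ T, g x = #T - 2 * m ∧ ∏ x ∈ T, g x = (-1) ^ m := by
  classical
  induction T using Finset.induction_on with
  | empty => exact ⟨0, by simp, by simp⟩
  | insert a T ha ih =>
    obtain ⟨m, h1, h2⟩ := ih
    rw [sum_insert ha, prod_insert ha, card_insert_of_notMem ha, h1, h2]
    rcases hg a with h | h
    · exact ⟨m, by rw [h]; push_cast; ring, by rw [h, one_mul]⟩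
    · exact ⟨m + 1, by rw [h]; push_cast; ring, by rw [h]; ring⟩

end

/-- Let `h` be the first row of a circulant Hadamard matrix of order `n = 4 m`, `m` odd, and let
`k` be a divisor of `n` with `n / k` even. Then the sequence of the products
`p(y) = ∏_{x ≡ y mod k} h(x)` on `ℤ/k` satisfies:
(1) for every `s ≠ 0` the number of `y` with `p(y) = p(y + s) = (-1)^(n/(2k) + 1)` is even, while
the number of `y` with `p(y) = (-1)^(n/(2k) + 1)` is odd;
(2) `p` has no period: if `p(y + s) = p(y)` for all `y` then `s = 0`. -/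
theorem result (n m : ℕ) [NeZero n] (hm : Odd m) (hn : n = 4 * m) (h : ZMod n → ℤ)
    (hh : CircHadamard h) :
    (∀ (k : ℕ) [NeZero k] (hk : k ∣ n), Even (n / k) →
      (∀ s : ZMod k, s ≠ 0 → Even #{y : ZMod k | prodSeq hk h y = (-1) ^ (n / k / 2 + 1) ∧
        prodSeq hk h (y + s) = (-1) ^ (n / k / 2 + 1)}) ∧
      Odd #{y : ZMod k | prodSeq hk h y = (-1) ^ (n / k / 2 + 1)} ∧
      (∀ s : ZMod k, (∀ y, prodSeq hk h (y + s) = prodSeq hk h y) → s = 0)) := by
  intro k _ hk hd
  obtain ⟨hs, hP⟩ := hh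
  -- the halves of the folded sequence
  have hc : ∀ y : ZMod k, ∃ c : ℤ, fold hk h y = 2 * c ∧
      (prodSeq hk h y = (-1) ^ (n / k / 2 + 1) ↔ Odd c) := by
    intro y
    obtain ⟨j, h1, h2⟩ := sign_sum
      (univ.filter (fun x : ZMod n => ZMod.castHom hk (ZMod k) x = y)) h hs
    rw [card_fiber hk y] at h1
    obtain ⟨e, he⟩ := hd
    have he2 : n / k / 2 = e := by omega
    refine ⟨(e : ℤ) - j, ?_, ?_⟩
    · unfold fold
      rw [h1, he]; push_cast; ring
    · unfold prodSeq
      rw [h2, he2]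
      rcases Nat.even_or_odd j with hj | hj <;> rcases Nat.even_or_odd e with he' | he'
      · have h3 : ¬ Odd ((e : ℤ) - j) := by
          rw [Int.not_odd_iff_even]
          exact (Int.even_coe_nat e |>.2 he').sub (Int.even_coe_nat j |>.2 hj)
        rw [hj.neg_one_pow, he'.add_one.neg_one_pow]
        simp [h3]
      · have h3 : Odd ((e : ℤ) - j) := (Int.odd_coe_nat e |>.2 he').sub_even (Int.even_coe_nat j |>.2 hj)
        rw [hj.neg_one_pow, he'.add_one.neg_one_pow]
        simp [h3]
      · have h3 : Odd ((e : ℤ) - j) := (Int.even_coe_nat e |>.2 he').sub_odd (Int.odd_coe_nat j |>.2 hj)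
        rw [hj.neg_one_pow, he'.add_one.neg_one_pow]
        simp [h3]
      · have h3 : ¬ Odd ((e : ℤ) - j) := by
          rw [Int.not_odd_iff_even]
          exact (Int.odd_coe_nat e |>.2 he').sub_odd (Int.odd_coe_nat j |>.2 hj)
        rw [hj.neg_one_pow, he'.add_one.neg_one_pow]
        simp [h3]
  choose c hc1 hc2 using hc
  -- parity of the number of `y` with both values odd
  have hpar : ∀ s : ZMod k, (Even #{y : ZMod k | prodSeq hk h y = (-1) ^ (n / k / 2 + 1) ∧
        prodSeq hk h (y + s) = (-1) ^ (n / k / 2 + 1)} ↔ Even (∑ y, c y * c (y + s))) := by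
    intro s
    have h1 : ((∑ y, c y * c (y + s) : ℤ) : ZMod 2) =
        ((#{y : ZMod k | prodSeq hk h y = (-1) ^ (n / k / 2 + 1) ∧
        prodSeq hk h (y + s) = (-1) ^ (n / k / 2 + 1)} : ℕ) : ZMod 2) := by
      rw [Finset.card_filter]
      push_cast
      refine Finset.sum_congr rfl fun y _ => ?_
      rw [if_congr (and_congr (hc2 y) (hc2 (y + s))) rfl rfl]
      rcases Int.even_or_odd (c y) with ha | ha
      · have : ((c y : ℤ) : ZMod 2) = 0 := by
          rw [ZMod.intCast_zmod_eq_zero_iff_dvd]; exact_mod_cast ha.two_dvd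
        rw [this, zero_mul, if_neg]
        rintro ⟨hb, -⟩
        exact (Int.not_odd_iff_even.2 ha) hb
      · rcases Int.even_or_odd (c (y + s)) with hb | hb
        · have : ((c (y + s) : ℤ) : ZMod 2) = 0 := by
            rw [ZMod.intCast_zmod_eq_zero_iff_dvd]; exact_mod_cast hb.two_dvd
          rw [this, mul_zero, if_neg]
          rintro ⟨-, hb'⟩
          exact (Int.not_odd_iff_even.2 hb) hb'
        · have h1 : ((c y : ℤ) : ZMod 2) = 1 := ZMod.intCast_eq_one_iff_odd.2 ha
          have h2 : ((c (y + s) : ℤ) : ZMod 2) = 1 := ZMod.intCast_eq_one_iff_odd.2 hb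
          rw [h1, h2, if_pos ⟨ha, hb⟩, one_mul]
    rw [even_iff_two_dvd, even_iff_two_dvd, ← ZMod.natCast_eq_zero_iff, ← h1]
    exact_mod_cast ZMod.intCast_zmod_eq_zero_iff_dvd (∑ y, c y * c (y + s)) 2
  have hcorr : ∀ s : ZMod k, 4 * ∑ y, c y * c (y + s) =
      ∑ t ∈ univ.filter (fun t : ZMod n => ZMod.castHom hk (ZMod k) t = s), autoc h t := by
    intro s
    rw [← fold_corr, Finset.mul_sum]
    refine Finset.sum_congr rfl fun y _ => ?_
    rw [hc1, hc1]; ring
  have h0 : autoc h 0 = n := by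
    unfold autoc
    have : ∀ x, h x * h (x + 0) = 1 := by
      intro x
      rw [add_zero]
      rcases hs x with h1 | h1 <;> rw [h1] <;> norm_num
    simp only [this]
    rw [Finset.sum_const, card_univ, ZMod.card]
    simp
  have hne : ∀ s : ZMod k, s ≠ 0 → ∑ y, c y * c (y + s) = 0 := by
    intro s hs0
    have h1 := hcorr s
    have h2 : ∑ t ∈ univ.filter (fun t : ZMod n => ZMod.castHom hk (ZMod k) t = s),
        autoc h t = 0 := by
      apply Finset.sum_eq_zero
      intro t ht
      apply hP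
      rintro rfl
      rw [mem_filter, map_zero] at ht
      exact hs0 ht.2.symm
    rw [h2] at h1
    omega
  have hze : ∑ y, c y * c (y + 0) = m := by
    have h1 := hcorr 0
    rw [Finset.sum_eq_single (0 : ZMod n)] at h1
    · rw [h0, hn] at h1
      push_cast at h1
      omega
    · intro t _ ht0
      exact hP t ht0
    · intro h2
      exfalso
      apply h2
      rw [mem_filter]
      exact ⟨mem_univ _, map_zero _⟩
  have hodd : ¬ Even #{y : ZMod k | prodSeq hk h y = (-1) ^ (n / k / 2 + 1)} := by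
    have h1 := hpar 0
    rw [hze] at h1
    simp only [add_zero, and_self] at h1
    rw [h1, Int.not_even_iff_odd]
    exact_mod_cast hm
  refine ⟨fun s hs0 => ?_, Nat.not_even_iff_odd.1 hodd, fun s hper => ?_⟩
  · rw [hpar s, hne s hs0]
    exact Even.zero
  · by_contra hs0
    apply hodd
    have h1 := (hpar s).2 (by rw [hne s hs0]; exact Even.zero)
    simp only [hper, and_self] at h1
    exact h1

end Vale.Agent.Results.P033.ProductSequences
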